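import Vale.Agent.Lib.P204.LieAlg

/-!
Left-invariant version of Donaldson's tamed-to-compatible question: on a real unimodular Lie
algebra of dimension four every complex structure tamed by a closed two-form is compatible
with a closed two-form, and the two closed forms differ by an exact form plus a closed
anti-invariant form.
-/

/-- Let `L` be a real Lie algebra of dimension four with `trace (ad x) = 0` for all `x`, and
`J` a linear map with `J ∘ J = -1`. If an alternating bilinear form `ω` with vanishing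
Chevalley-Eilenberg differential satisfies `ω v (J v) > 0` for `v ≠ 0`, then there are an
alternating `ω'` with vanishing differential, `J`-invariant and with `ω' v (J v) > 0` for
`v ≠ 0`, and a linear form `β` such that `ω - ω' - dβ` is `J`-anti-invariant, where
`dβ (u, v) = - β ⁅u, v⁆`. -/
theorem Vale.Agent.Results.P204.LeftInvariant.result
    {L : Type*} [LieRing L] [LieAlgebra ℝ L] [Module.Finite ℝ L]
    (h4 : Module.finrank ℝ L = 4)
    (hu : ∀ x : L, LinearMap.trace ℝ L (LieAlgebra.ad ℝ L x) = 0)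
    (J : L →ₗ[ℝ] L) (hJ : ∀ x, J (J x) = -x)
    (ω : LinearMap.BilinForm ℝ L) (halt : ∀ x, ω x x = 0)
    (hcl : ∀ x y z, ω ⁅x, y⁆ z + ω ⁅y, z⁆ x + ω ⁅z, x⁆ y = 0)
    (htame : ∀ v, v ≠ 0 → 0 < ω v (J v)) :
    ∃ (ω' : LinearMap.BilinForm ℝ L) (β : Module.Dual ℝ L),
      (∀ x, ω' x x = 0) ∧
      (∀ x y z, ω' ⁅x, y⁆ z + ω' ⁅y, z⁆ x + ω' ⁅z, x⁆ y = 0) ∧
      (∀ u v, ω' (J u) (J v) = ω' u v) ∧
      (∀ v, v ≠ 0 → 0 < ω' v (J v)) ∧
      (∀ u v, (ω (J u) (J v) - ω' (J u) (J v) + β ⁅J u, J v⁆)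
        = - (ω u v - ω' u v + β ⁅u, v⁆)) :=
  Vale.Agent.Lib.P204.main_lie h4 hu J hJ ω halt hcl htame
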